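import Vale.Agent.P054.T2.H606.HandIn
import Vale.Agent.P054.T2.H428.MainTop
import Vale.Agent.P054.T2.H163.SecB
import Vale.Agent.P054.T2.H930.ZPack
import Vale.Agent.P054.T2.H94.LeafS
import Vale.Agent.P054.T2.H701.GStarS

set_option autoImplicit false
set_option linter.all false

/-!
# P054 / T2: everything, from the two last leaves `VertS n`, `StabS n` (or `DomS n`), `n ≥ 3`
-/

namespace Vale.Agent.P054.T2.H606

theorem txt_of_secB (h : ∀ n, 3 ≤ n → H794.SecB n) : Txt g :=
  txt_of_mainAB fun n hn => SecC.mainAB_of_secB (by omega) (h n hn)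

theorem txt_of_stab (hV : ∀ n, 3 ≤ n → H163.VertS n) (hS : ∀ n, 3 ≤ n → H441.StabS n) : Txt g :=
  txt_of_secB fun n hn => H163.secB_of (hV n hn) (H930.zPackS n) (H94.leafS n) (hS n hn)
    (H701.gStarS n)

theorem txt_of_dom (hV : ∀ n, 3 ≤ n → H163.VertS n) (hD : ∀ n, 3 ≤ n → H794.DomS n) : Txt g :=
  txt_of_stab hV fun n hn => H441.stabS_of_domS (hD n hn)

end Vale.Agent.P054.T2.H606
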