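import Mathlib.Analysis.InnerProductSpace.PiL2
import Mathlib.Analysis.SpecialFunctions.Pow.Real
import Mathlib.Analysis.SpecialFunctions.Log.Basic
import Mathlib.Topology.Order.Basic

set_option autoImplicit false
set_option linter.all false

/-!
# P054: the grid bound `g_d(n) ≤ d n^(2/d)` and the exact exponent
-/

namespace Vale.Agent.P054.T2.H606

open Filter Topology

/-- the set of distinct distances of `P` -/
def DD {d : ℕ} (P : Finset (EuclideanSpace ℝ (Fin d))) : Set ℝ :=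
  {r : ℝ | ∃ p ∈ P, ∃ q ∈ P, p ≠ q ∧ r = dist p q}

theorem DD_finite {d : ℕ} (P : Finset (EuclideanSpace ℝ (Fin d))) : (DD P).Finite := by
  classical
  refine ((P ×ˢ P).image fun q => dist q.1 q.2).finite_toSet.subset ?_
  rintro r ⟨p, hp, q, hq, -, rfl⟩
  simp only [Finset.coe_image, Set.mem_image, Finset.mem_coe, Finset.mem_product, Prod.exists]
  exact ⟨p, q, ⟨hp, hq⟩, rfl⟩

/-- the point of the grid with coordinates `a` -/
noncomputable def gp (d s : ℕ) (a : Fin d → Fin s) : EuclideanSpace ℝ (Fin d) :=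
  WithLp.toLp 2 fun i => ((a i : ℕ) : ℝ)

theorem gp_inj (d s : ℕ) : Function.Injective (gp d s) := by
  intro a b h
  funext i
  have h1 : (gp d s a) i = (gp d s b) i := by rw [h]
  simp only [gp] at h1
  exact Fin.ext (by exact_mod_cast h1)

theorem gp_dist (d s : ℕ) (a b : Fin d → Fin s) (hab : a ≠ b) :
    ∃ k : ℕ, k ∈ Finset.Icc 1 (d * (s - 1) ^ 2) ∧ dist (gp d s a) (gp d s b) = Real.sqrt k := by
  set N : ℕ := ∑ i, (((a i : ℕ) : ℤ) - ((b i : ℕ) : ℤ)).natAbs ^ 2 with hN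
  have hterm : ∀ i, (((a i : ℕ) : ℤ) - ((b i : ℕ) : ℤ)).natAbs ≤ s - 1 := by
    intro i
    have h1 := (a i).2
    have h2 := (b i).2
    omega
  have hNle : N ≤ d * (s - 1) ^ 2 := by
    calc N ≤ ∑ _i : Fin d, (s - 1) ^ 2 :=
          Finset.sum_le_sum fun i _ => Nat.pow_le_pow_left (hterm i) 2
      _ = d * (s - 1) ^ 2 := by simp
  have hN1 : 1 ≤ N := by
    obtain ⟨i, hi⟩ := Function.ne_iff.1 hab
    have h0 : 1 ≤ (((a i : ℕ) : ℤ) - ((b i : ℕ) : ℤ)).natAbs := by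
      rcases Nat.eq_zero_or_pos (((a i : ℕ) : ℤ) - ((b i : ℕ) : ℤ)).natAbs with h | h
      · exfalso
        apply hi
        apply Fin.ext
        omega
      · exact h
    calc 1 ≤ (((a i : ℕ) : ℤ) - ((b i : ℕ) : ℤ)).natAbs ^ 2 := Nat.one_le_pow _ _ h0
      _ ≤ N := Finset.single_le_sum
          (f := fun i => (((a i : ℕ) : ℤ) - ((b i : ℕ) : ℤ)).natAbs ^ 2)
          (fun _ _ => Nat.zero_le _) (Finset.mem_univ i)
  refine ⟨N, Finset.mem_Icc.2 ⟨hN1, hNle⟩, ?_⟩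
  rw [EuclideanSpace.dist_eq]
  congr 1
  rw [hN]
  push_cast
  refine Finset.sum_congr rfl fun i _ => ?_
  have h1 : dist ((gp d s a) i) ((gp d s b) i) = |((a i : ℕ) : ℝ) - ((b i : ℕ) : ℝ)| := by
    rw [Real.dist_eq]
    rfl
  rw [h1]
  have h2 : (((((a i : ℕ) : ℤ) - ((b i : ℕ) : ℤ)).natAbs : ℕ) : ℝ) =
      |((a i : ℕ) : ℝ) - ((b i : ℕ) : ℝ)| := by
    rw [Nat.cast_natAbs]
    push_cast
    rfl
  rw [h2]

theorem exists_grid (d n : ℕ) (hd : 1 ≤ d) (hn : 1 ≤ n) :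
    ∃ P : Finset (EuclideanSpace ℝ (Fin d)), P.card = n ∧
      ((DD P).ncard : ℝ) ≤ d * (n : ℝ) ^ (2 / (d : ℝ)) := by
  classical
  have hd0 : (0 : ℝ) < d := by exact_mod_cast hd
  have hn0 : (1 : ℝ) ≤ n := by exact_mod_cast hn
  set x : ℝ := (n : ℝ) ^ (1 / (d : ℝ)) with hx
  have hx1 : 1 ≤ x := Real.one_le_rpow hn0 (by positivity)
  set s : ℕ := ⌈x⌉₊ with hs
  have hxs : x ≤ s := Nat.le_ceil _
  have hs1 : (s : ℝ) < x + 1 := Nat.ceil_lt_add_one (by linarith)
  have hs0 : 1 ≤ s := by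
    have : (1 : ℝ) ≤ s := hx1.trans hxs
    exact_mod_cast this
  have hcard : n ≤ s ^ d := by
    have h1 : x ^ d = n := by
      rw [hx, ← Real.rpow_natCast, ← Real.rpow_mul (by linarith)]
      rw [one_div, inv_mul_cancel₀ hd0.ne', Real.rpow_one]
    have h2 : (n : ℝ) ≤ (s : ℝ) ^ d := by
      rw [← h1]
      exact pow_le_pow_left₀ (by linarith) hxs d
    exact_mod_cast h2
  have himg : ((Finset.univ : Finset (Fin d → Fin s)).image (gp d s)).card = s ^ d := by
    rw [Finset.card_image_of_injective _ (gp_inj d s)]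
    simp
  obtain ⟨P, hPsub, hPc⟩ := Finset.exists_subset_card_eq (himg ▸ hcard)
  refine ⟨P, hPc, ?_⟩
  have hsub : DD P ⊆ (((Finset.Icc 1 (d * (s - 1) ^ 2)).image fun k : ℕ => Real.sqrt k :
      Finset ℝ) : Set ℝ) := by
    rintro r ⟨p, hp, q, hq, hpq, rfl⟩
    obtain ⟨a, -, rfl⟩ := Finset.mem_image.1 (hPsub hp)
    obtain ⟨b, -, rfl⟩ := Finset.mem_image.1 (hPsub hq)
    obtain ⟨k, hk, h⟩ := gp_dist d s a b (fun h => hpq (by rw [h]))
    rw [h]
    simp only [Finset.coe_image, Set.mem_image, Finset.mem_coe]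
    exact ⟨k, hk, rfl⟩
  have h1 : (DD P).ncard ≤ d * (s - 1) ^ 2 := by
    refine (Set.ncard_le_ncard hsub (Finset.finite_toSet _)).trans ?_
    rw [Set.ncard_coe_finset]
    refine Finset.card_image_le.trans ?_
    simp
  have h2 : ((s - 1 : ℕ) : ℝ) ≤ x := by
    rw [Nat.cast_sub hs0]
    push_cast
    linarith
  calc ((DD P).ncard : ℝ) ≤ ((d * (s - 1) ^ 2 : ℕ) : ℝ) := by exact_mod_cast h1
    _ = d * ((s - 1 : ℕ) : ℝ) ^ 2 := by push_cast; ring
    _ ≤ d * x ^ 2 := by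
        apply mul_le_mul_of_nonneg_left _ hd0.le
        exact pow_le_pow_left₀ (by positivity) h2 2
    _ = d * (n : ℝ) ^ (2 / (d : ℝ)) := by
        rw [hx, ← Real.rpow_natCast, ← Real.rpow_mul (by linarith)]
        congr 2
        push_cast
        ring

/-- `g_d(n)` -/
noncomputable def g (d n : ℕ) : ℕ :=
  sInf {k : ℕ | ∃ P : Finset (EuclideanSpace ℝ (Fin d)), P.card = n ∧ (DD P).ncard = k}

theorem g_le (d n : ℕ) (hd : 1 ≤ d) (hn : 1 ≤ n) :
    (g d n : ℝ) ≤ d * (n : ℝ) ^ (2 / (d : ℝ)) := by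
  obtain ⟨P, hP, h⟩ := exists_grid d n hd hn
  refine le_trans ?_ h
  have : g d n ≤ (DD P).ncard := Nat.sInf_le ⟨P, hP, rfl⟩
  exact_mod_cast this

/-- the lower bound for every set -/
def Low (d : ℕ) : Prop := ∀ ε : ℝ, 0 < ε → ∃ c : ℝ, 0 < c ∧
  ∀ n : ℕ, 2 ≤ n → c * (n : ℝ) ^ (2 / (d : ℝ) - ε) ≤ (g d n : ℝ)

/-- the exact exponent -/
theorem tendsto_of_low {d : ℕ} (hd : 1 ≤ d) (h : Low d) :
    Tendsto (fun n : ℕ => Real.log (g d n) / Real.log n) atTop (𝓝 (2 / (d : ℝ))) := by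
  have hd0 : (0 : ℝ) < d := by exact_mod_cast hd
  have hlog : Tendsto (fun n : ℕ => Real.log (n : ℝ)) atTop atTop :=
    Real.tendsto_log_atTop.comp tendsto_natCast_atTop_atTop
  have hinv : ∀ C : ℝ, Tendsto (fun n : ℕ => C / Real.log (n : ℝ)) atTop (𝓝 0) := fun C =>
    hlog.const_div_atTop C
  rw [tendsto_order]
  constructor
  · intro a ha
    set ε : ℝ := (2 / (d : ℝ) - a) / 2 with hε
    have hε0 : 0 < ε := by rw [hε]; linarith
    obtain ⟨c, hc, h1⟩ := h ε hε0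
    have h2 := (hinv (Real.log c)).eventually (lt_mem_nhds (show -ε < 0 by linarith))
    filter_upwards [h2, eventually_ge_atTop 2] with n hn2 hn
    have hn0 : (1 : ℝ) < n := by exact_mod_cast (show 1 < n by omega)
    have hL : 0 < Real.log n := Real.log_pos hn0
    have h3 := h1 n hn
    have hpos : 0 < c * (n : ℝ) ^ (2 / (d : ℝ) - ε) := by positivity
    have h4 := Real.log_le_log hpos h3
    rw [Real.log_mul hc.ne' (by positivity), Real.log_rpow (by linarith)] at h4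
    have h5 : Real.log c / Real.log n + (2 / (d : ℝ) - ε) ≤ Real.log (g d n) / Real.log n := by
      rw [le_div_iff₀ hL, add_mul, div_mul_cancel₀ _ hL.ne']
      exact h4
    have h6 : (2 / (d : ℝ) - ε) - ε = a := by rw [hε]; ring
    linarith
  · intro a ha
    set ε : ℝ := a - 2 / (d : ℝ) with hε
    have hε0 : 0 < ε := by rw [hε]; linarith
    obtain ⟨c, hc, h1⟩ := h 1 one_pos
    have h2 := (hinv (Real.log d)).eventually (gt_mem_nhds (show (0 : ℝ) < ε from hε0))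
    filter_upwards [h2, eventually_ge_atTop 2] with n hn2 hn
    have hn0 : (1 : ℝ) < n := by exact_mod_cast (show 1 < n by omega)
    have hL : 0 < Real.log n := Real.log_pos hn0
    have hgpos : (0 : ℝ) < g d n := lt_of_lt_of_le (by positivity) (h1 n hn)
    have h3 := g_le d n hd (by omega)
    have h4 := Real.log_le_log hgpos h3
    rw [Real.log_mul hd0.ne' (by positivity), Real.log_rpow (by linarith)] at h4
    have h5 : Real.log (g d n) / Real.log n ≤ Real.log d / Real.log n + 2 / (d : ℝ) := by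
      rw [div_le_iff₀ hL, add_mul, div_mul_cancel₀ _ hL.ne']
      exact h4
    linarith

end Vale.Agent.P054.T2.H606
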