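import Vale.Agent.P054.T2.H606.Grid
import Vale.Agent.P054.T2.H84.Last

set_option autoImplicit false
set_option linter.all false

/-!
# P054 / T2: the hand-in as a function of `MainAB n`, `n ≥ 3`
-/

namespace Vale.Agent.P054.T2.H606

open Filter Topology

theorem g_eq (d n : ℕ) : g d n = H686.g d n := rfl

/-- the text of the hand-in, for a function `g` -/
def Txt (g : ℕ → ℕ → ℕ) : Prop := ∀ d : ℕ, 2 ≤ d →
  (∀ ε : ℝ, 0 < ε → ∃ c : ℝ, 0 < c ∧ ∀ n : ℕ, 2 ≤ n →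
    c * (n : ℝ) ^ (2 / (d : ℝ) - ε) ≤ ((g d n : ℕ) : ℝ)) ∧
  Tendsto (fun n : ℕ => Real.log (g d n) / Real.log n) atTop (𝓝 (2 / (d : ℝ)))

theorem txt_of_low (h : ∀ d : ℕ, 2 ≤ d → Low d) : Txt g := fun d hd =>
  ⟨h d hd, tendsto_of_low (by omega) (h d hd)⟩

/-- **the hand-in from `MainAB n` for `n ≥ 3`** -/
theorem txt_of_mainAB (hAB : ∀ n, 3 ≤ n → H686.MainAB n) : Txt g :=
  txt_of_low fun d hd ε hε => H84.lower_of_mainAB hAB d hd ε hε

end Vale.Agent.P054.T2.H606
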